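import Vale.Agent.P317.MathlibUsed
import Vale.Agent.P317.Prog
import Vale.Agent.P317.H964.Defs
import Vale.Agent.P317.H964.Conv

namespace Vale.Agent.Results.P317.SizedFprasSampler

open Vale.Agent.P317.Small Vale.Agent.P317.Fam

/-- (1) There are an approximate counter and an approximately uniform sampler, with polynomially
many steps, for the common bases of two arbitrary matroids of equal rank given by independence
oracles. (2) The same holds for two matroids of arbitrary ranks and the sets which are independent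
in the first one, have at most `a` elements, and have rank at least `b` in the second one; for
`a = b = k` these are the common independent sets with `k` elements. -/
theorem result :
    (∃ (c c' : Prog) (d : ℕ), ∀ (n : ℕ) (M₁ M₂ : Matroid (Fin n)),
      M₁.E = Set.univ → M₂.E = Set.univ → M₁.eRank = M₂.eRank →
      ∀ ε δ : ℝ, 0 < ε → ε < 1 → 0 < δ → δ < 1 →
      ∀ e l T : ℕ, e = ⌈1 / ε⌉₊ → l = ⌈Real.logb 2 (1 / δ)⌉₊ → T = (n + e + l + 2) ^ d →
        Counts (oracles M₁ M₂) c (input n e l) {B | M₁.IsBase B ∧ M₂.IsBase B} ε δ T ∧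
        Samples (oracles M₁ M₂) c' (input n e l) {B | M₁.IsBase B ∧ M₂.IsBase B} (ε + δ) T) ∧
    ∃ (c c' : Prog) (d : ℕ), ∀ (n : ℕ) (M₁ M₂ : Matroid (Fin n)),
      M₁.E = Set.univ → M₂.E = Set.univ → ∀ a b : ℕ,
      ∀ ε δ : ℝ, 0 < ε → ε < 1 → 0 < δ → δ < 1 →
      ∀ e l T : ℕ, e = ⌈1 / ε⌉₊ → l = ⌈Real.logb 2 (1 / δ)⌉₊ → T = (n + e + l + 2) ^ d →
        Counts (oracles M₁ M₂) c (input5 n e l a b) (family M₁ M₂ a b) ε δ T ∧
        Samples (oracles M₁ M₂) c' (input5 n e l a b) (family M₁ M₂ a b) (ε + δ) T := by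
  refine ⟨⟨cvC Vale.Agent.P317.Alg.progT, cvC Vale.Agent.P317.H964.sampProg, 241, ?_⟩,
    ⟨cvC Vale.Agent.P317.H964.cntProg, cvC Vale.Agent.P317.H964.sampProgB, 245, ?_⟩⟩
  · intro n M₁ M₂ _ _ hr ε δ hε _ hδ _ e l T he hl hT
    have he' := Vale.Agent.P317.Alg.eps_ok hε
    rw [← he] at he'
    have hδ' := Vale.Agent.P317.Alg.delta_ok hδ
    rw [← hl] at hδ'
    have hF := Vale.Agent.P317.H964.bases_iff M₁ M₂ hr
    have hcard := Vale.Agent.P317.H964.card_of_iff hF
    constructor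
    · obtain ⟨h1, h2⟩ := Vale.Agent.P317.Alg.progT_spec n M₁ M₂ e l he'.1
      exact Vale.Agent.P317.H964.counts_of (by rw [hcard]; exact h2) h1 hT he'.2 hδ'
    · obtain ⟨h1, h2⟩ := Vale.Agent.P317.H964.samp_spec n M₁ M₂ e l he'.1
      refine Vale.Agent.P317.H964.samples_of h1 hT (fun hne 𝓖 => ?_) he'.2 hδ'
      rw [hcard, Vale.Agent.P317.H964.card_of_iffG hF 𝓖]
      exact h2 (Vale.Agent.P317.H964.card_pos_of hF hne) 𝓖
  · intro n M₁ M₂ _ _ a b ε δ hε _ hδ _ e l T he hl hT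
    have he' := Vale.Agent.P317.Alg.eps_ok hε
    rw [← he] at he'
    have hδ' := Vale.Agent.P317.Alg.delta_ok hδ
    rw [← hl] at hδ'
    constructor
    · obtain ⟨h1, h2⟩ := Vale.Agent.P317.H964.cnt_spec n M₁ M₂ a b e l he'.1
      exact Vale.Agent.P317.H964.counts_of h2 h1 hT he'.2 hδ'
    · obtain ⟨h1, h2⟩ := Vale.Agent.P317.H964.sampB_spec n M₁ M₂ a b e l he'.1
      exact Vale.Agent.P317.H964.samples_of h1 hT h2 he'.2 hδ'

end Vale.Agent.Results.P317.SizedFprasSampler
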