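import Vale.Agent.P317.MathlibUsed
import Vale.Agent.P317.Prog
import Vale.Agent.P317.H964.WDefs
import Vale.Agent.P317.H964.WConv

namespace Vale.Agent.Results.P317.WeightedFpras

open Vale.Agent.P317.Small Vale.Agent.P317.Wt

/-- (1) There is an approximate counter, with polynomially many steps, for the common bases of two
arbitrary matroids of equal rank given by independence oracles. (2) For two matroids of arbitrary
ranks, every `k` and all weights `w v < 2 ^ L` of the elements, given in binary, there are, with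
polynomially many steps in `n`, `L`, `1/ε` and `log (1/δ)`, an approximation of the sum of the
products of the weights over the common independent sets with `k` elements, and a sampler whose law
is close to the one proportional to these products. -/
theorem result :
    (∃ (c : Prog) (d : ℕ), ∀ (n : ℕ) (M₁ M₂ : Matroid (Fin n)),
      M₁.E = Set.univ → M₂.E = Set.univ → M₁.eRank = M₂.eRank →
      ∀ ε δ : ℝ, 0 < ε → ε < 1 → 0 < δ → δ < 1 →
      ∀ e l T : ℕ, e = ⌈1 / ε⌉₊ → l = ⌈Real.logb 2 (1 / δ)⌉₊ → T = (n + e + l + 2) ^ d →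
        Estimates (oracles M₁ M₂) c (input n e l)
          (Nat.card {B : Set (Fin n) // M₁.IsBase B ∧ M₂.IsBase B}) ε δ T) ∧
    ∃ (c c' : Prog) (d : ℕ), ∀ (n : ℕ) (M₁ M₂ : Matroid (Fin n)),
      M₁.E = Set.univ → M₂.E = Set.univ →
      ∀ (k L : ℕ) (w : Fin n → ℕ), 0 < L → (∀ v, w v < 2 ^ L) →
      ∀ ε δ : ℝ, 0 < ε → ε < 1 → 0 < δ → δ < 1 →
      ∀ e l T : ℕ, e = ⌈1 / ε⌉₊ → l = ⌈Real.logb 2 (1 / δ)⌉₊ → T = (n + L + e + l + 2) ^ d →
        Estimates (oracles M₁ M₂) c (inputW n e l k L w) (weight w (sized M₁ M₂ k)) ε δ T ∧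
        SamplesW (oracles M₁ M₂) c' (inputW n e l k L w) w (sized M₁ M₂ k) (ε + δ) T := by
  refine ⟨⟨cvC Vale.Agent.P317.Alg.progT, 241, ?_⟩,
    ⟨cvC Vale.Agent.P317.H964.cntW, cvC Vale.Agent.P317.H964.sampW, 1220, ?_⟩⟩
  · intro n M₁ M₂ _ _ hr ε δ hε _ hδ _ e l T he hl hT
    have he' := Vale.Agent.P317.Alg.eps_ok hε
    rw [← he] at he'
    have hδ' := Vale.Agent.P317.Alg.delta_ok hδ
    rw [← hl] at hδ'
    have hF := Vale.Agent.P317.H964.bases_iff M₁ M₂ hr
    have hcard := Vale.Agent.P317.H964.card_of_iff hF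
    obtain ⟨h1, h2⟩ := Vale.Agent.P317.Alg.progT_spec n M₁ M₂ e l he'.1
    exact Vale.Agent.P317.H964.estimates_of (congrArg Nat.cast hcard) h2 h1 hT he'.2 hδ'
  · intro n M₁ M₂ _ _ k L w hL hw ε δ hε _ hδ _ e l T he hl hT
    have he' := Vale.Agent.P317.Alg.eps_ok hε
    rw [← he] at he'
    have hδ' := Vale.Agent.P317.Alg.delta_ok hδ
    rw [← hl] at hδ'
    have hw' := Vale.Agent.P317.H964.exw_lt hw
    have hW := Vale.Agent.P317.H964.bits_spec (L := L) w
    rw [← Vale.Agent.P317.H964.cvS_input]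
    constructor
    · obtain ⟨h1, h2⟩ := Vale.Agent.P317.H964.cntW_spec n M₁ M₂ e l k L he'.1 hL _ _ hw' hW
      exact Vale.Agent.P317.H964.estimates_of (Vale.Agent.P317.H964.weight_eq w k) h2 h1 hT
        he'.2 hδ'
    · obtain ⟨h1, h2⟩ := Vale.Agent.P317.H964.sampW_spec n M₁ M₂ e l k L he'.1 hL _ _ hw' hW
      exact Vale.Agent.P317.H964.samplesW_of h1 hT h2 he'.2 hδ'

end Vale.Agent.Results.P317.WeightedFpras
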